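import Mathlib
import Vale.Agent.P333.Model
import Vale.Agent.P333.NPDefs
import Vale.Agent.P333.NP.Main
import Vale.Agent.P333.G.Final

/-!
P333: polynomial time approximation of the shortest common superstring problem with every ratio
greater than `20/9`; NP-hardness of the approximation with every ratio below `131/130`. The PCP
theorem, parallel repetition, Hastad's theorem and the Cook-Levin theorem are proved in the
imported files.
-/

namespace Vale.Agent.Results.P333.Approx209NP131

open Vale.Agent.P333

theorem result :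
    (∀ ρ : ℝ, 20 / 9 < ρ → HasApprox ρ) ∧
    (∀ ρ : ℝ, ρ < 131 / 130 → HasApprox ρ → classNP = classP) ∧
    bestRatio ≤ 20 / 9 ∧
    (classNP ≠ classP → 131 / 130 ≤ bestRatio) ∧
    (∀ ρ : ℝ, ρ < 131 / 130 → ∀ L ∈ classNP,
      ∃ (f : List Bool → List (List ℕ)) (k : List Bool → ℕ),
        PolyTime (fun w : List Bool => w) familyW f ∧
        PolyTime (fun w : List Bool => w) Nat.bits k ∧
        ∀ x, (x ∈ L → opt (f x) ≤ k x) ∧ (x ∉ L → ρ * k x < opt (f x))) :=
  ⟨G.hasApprox_main, NP.np_eq_p,
    le_of_forall_gt_imp_ge_of_dense fun _ hr => NP.bestRatio_le (G.hasApprox_main _ hr),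
    fun hne => NP.le_bestRatio ⟨_, G.hasApprox_main 3 (by norm_num)⟩
      fun ρ hρ hr => hne (NP.np_eq_p ρ hρ hr),
    NP.np_hard⟩

end Vale.Agent.Results.P333.Approx209NP131
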