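import Mathlib
import Vale.Agent.P333.Model
import Vale.Agent.P333.NPDefs
import Vale.Agent.P333.NP.Main
import Vale.Agent.P333.E.Final

/-!
P333: a polynomial time approximation for the shortest common superstring problem with a ratio
strictly below `7/3`; NP-hardness of the approximation with every ratio below `131/130`. The PCP
theorem, parallel repetition, Hastad's theorem and the Cook-Levin theorem are proved in the
imported files.
-/

namespace Vale.Agent.Results.P333.ApproxNP131

open Vale.Agent.P333

theorem result :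
    HasApprox (7 / 3 - 1 / 10 ^ 29) ∧
    (∀ ρ : ℝ, ρ < 131 / 130 → HasApprox ρ → classNP = classP) ∧
    bestRatio ≤ 7 / 3 - 1 / 10 ^ 29 ∧
    (classNP ≠ classP → 131 / 130 ≤ bestRatio) ∧
    (∀ ρ : ℝ, ρ < 131 / 130 → ∀ L ∈ classNP,
      ∃ (f : List Bool → List (List ℕ)) (k : List Bool → ℕ),
        PolyTime (fun w : List Bool => w) familyW f ∧
        PolyTime (fun w : List Bool => w) Nat.bits k ∧
        ∀ x, (x ∈ L → opt (f x) ≤ k x) ∧ (x ∉ L → ρ * k x < opt (f x))) := by
  have h : HasApprox (7 / 3 - 1 / 10 ^ 29) := by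
    have h := E.hasApprox_main
    rwa [Nat.cast_pow, Nat.cast_ofNat] at h
  exact ⟨h, NP.np_eq_p, NP.bestRatio_le h,
    fun hne => NP.le_bestRatio ⟨_, h⟩ fun ρ hρ hr => hne (NP.np_eq_p ρ hρ hr),
    NP.np_hard⟩

end Vale.Agent.Results.P333.ApproxNP131
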